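import Vale.Agent.Lib.P054.Lat.PinnedG

/-! N1. ROUTE (translation to `plane_or_line`). Let `S` be the filter set. If `S = ∅`: left. Else fix `b0 ∈ S`. The map `b ↦ b - b0` is injective and maps `S` into
`T = (box3 (2 * s)).filter (fun b => rz c b = 0)` (`rz` is additive in `b`: unfold, `push_cast`, `linarith`; coordinates: `Finset.mem_product`, `Finset.mem_Icc`, `omega`).
Apply `plane_or_line (2 * s) c hc`. Left case: `card S ≤ card T ≤ 2 * (2 * s) + 1 = 4 s + 1`. Right case: `z ≠ 0`, `rpar c z`, `T ⊆ {dot z b = 0}`; take `k' = dot z b0`: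
for `b ∈ S`, `dot z (b - b0) = 0`, and `dot z (b - b0) = dot z b - dot z b0` (unfold `dot`, `ring`). -/

namespace Vale.Agent.Lib.P054

open Finset

theorem plane_or_line_aff (s : ℕ) (c : ℝ × ℝ × ℝ) (hc : c ≠ 0) (k : ℝ) :
    ((box3 s).filter (fun b => rz c b = k)).card ≤ 4 * s + 1 ∨
    ∃ z : ℤ × ℤ × ℤ, z ≠ 0 ∧ rpar c z ∧ ∃ k' : ℤ,
      (box3 s).filter (fun b => rz c b = k) ⊆ (box3 s).filter (fun b => dot z b = k') := by
  classical
  rcases Finset.eq_empty_or_nonempty ((box3 s).filter (fun b => rz c b = k)) with hS | ⟨b0, hb0⟩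
  · left
    rw [hS]
    simp
  have hb0' := Finset.mem_filter.mp hb0
  have hmem : ∀ b ∈ (box3 s).filter (fun b => rz c b = k),
      b - b0 ∈ (box3 (2 * s)).filter (fun b => rz c b = 0) := by
    intro b hb
    have hb' := Finset.mem_filter.mp hb
    refine Finset.mem_filter.mpr ⟨?_, ?_⟩
    · have h1 := hb'.1
      have h2 := hb0'.1
      unfold box3 box at h1 h2 ⊢
      simp only [Finset.mem_product, Finset.mem_Icc] at h1 h2 ⊢
      simp only [Prod.fst_sub, Prod.snd_sub]
      push_cast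
      refine ⟨⟨?_, ?_⟩, ⟨?_, ?_⟩, ⟨?_, ?_⟩⟩ <;> omega
    · have h1 := hb'.2
      have h2 := hb0'.2
      unfold rz at h1 h2 ⊢
      simp only [Prod.fst_sub, Prod.snd_sub]
      push_cast
      linarith
  have hinj : Set.InjOn (fun b : ℤ × ℤ × ℤ => b - b0)
      ((box3 s).filter (fun b => rz c b = k) : Finset (ℤ × ℤ × ℤ)) := by
    intro b _ b' _ h
    exact sub_left_injective h
  have hcard : ((box3 s).filter (fun b => rz c b = k)).card
      ≤ ((box3 (2 * s)).filter (fun b => rz c b = 0)).card :=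
    Finset.card_le_card_of_injOn (fun b => b - b0) hmem hinj
  rcases plane_or_line (2 * s) c hc with h | ⟨z, hz, hpar, hsub⟩
  · left
    omega
  · right
    refine ⟨z, hz, hpar, dot z b0, ?_⟩
    intro b hb
    have hb' := Finset.mem_filter.mp hb
    refine Finset.mem_filter.mpr ⟨hb'.1, ?_⟩
    have h1 := (Finset.mem_filter.mp (hsub (hmem b hb))).2
    unfold dot at h1 ⊢
    simp only [Prod.fst_sub, Prod.snd_sub] at h1
    linarith

end Vale.Agent.Lib.P054
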