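import Vale.Agent.Lib.P054.Defs

/-! N5. ROUTE. With `rf y = card {a ∈ A : f a = y}`, `rg y = card {a ∈ A : g a = y}` and `Y = A.image f ∪ A.image g`:
`card {(a, b) : f a = g b} = ∑_{y ∈ Y} rf y * rg y` (fiberwise over `f p.1`; the fibre over `y` is `{f = y} ×ˢ {g = y}`), likewise `card {f a = f b} = ∑_Y rf^2`, `card {g a = g b} = ∑_Y rg^2`,
and `rf * rg ≤ (rf^2 + rg^2) / 2`. Hence `card ≤ (B + B) / 2`. -/

namespace Vale.Agent.Lib.P054

open Finset

private theorem card_pairs_eq {α β : Type*} [DecidableEq α] [DecidableEq β] (A : Finset α)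
    (u v : α → β) (Y : Finset β) (hY : ∀ a ∈ A, u a ∈ Y) :
    ((A ×ˢ A).filter (fun p => u p.1 = v p.2)).card
      = ∑ y ∈ Y, (A.filter (fun a => u a = y)).card * (A.filter (fun a => v a = y)).card := by
  rw [Finset.card_eq_sum_card_fiberwise (f := fun p => u p.1) (t := Y)]
  · refine Finset.sum_congr rfl fun y _ => ?_
    rw [← Finset.card_product]
    refine congrArg Finset.card ?_
    ext ⟨a, b⟩
    simp only [mem_filter, mem_product]
    constructor
    · rintro ⟨⟨⟨ha, hb⟩, h⟩, hy⟩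
      exact ⟨⟨ha, hy⟩, ⟨hb, by rw [← h, hy]⟩⟩
    · rintro ⟨⟨ha, hy⟩, ⟨hb, hy'⟩⟩
      exact ⟨⟨⟨ha, hb⟩, by rw [hy, hy']⟩, hy⟩
  · intro p hp
    have hp' := (Finset.mem_filter.mp (Finset.mem_coe.mp hp)).1
    exact Finset.mem_coe.mpr (hY _ (Finset.mem_product.mp hp').1)

theorem card_mixed_le {α β : Type*} [DecidableEq α] [DecidableEq β] (A : Finset α) (f g : α → β) (B : ℝ)
    (hf : (((A ×ˢ A).filter (fun p => f p.1 = f p.2)).card : ℝ) ≤ B)
    (hg : (((A ×ˢ A).filter (fun p => g p.1 = g p.2)).card : ℝ) ≤ B) :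
    (((A ×ˢ A).filter (fun p => f p.1 = g p.2)).card : ℝ) ≤ B := by
  have hfY : ∀ a ∈ A, f a ∈ A.image f ∪ A.image g :=
    fun a ha => mem_union_left _ (mem_image_of_mem f ha)
  have hgY : ∀ a ∈ A, g a ∈ A.image f ∪ A.image g :=
    fun a ha => mem_union_right _ (mem_image_of_mem g ha)
  rw [card_pairs_eq A f f _ hfY] at hf
  rw [card_pairs_eq A g g _ hgY] at hg
  rw [card_pairs_eq A f g _ hfY]
  push_cast at hf hg ⊢
  have key : ∑ y ∈ A.image f ∪ A.image g,
      ((A.filter (fun a => f a = y)).card : ℝ) * ((A.filter (fun a => g a = y)).card : ℝ)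
      ≤ ∑ y ∈ A.image f ∪ A.image g,
        ((((A.filter (fun a => f a = y)).card : ℝ) * ((A.filter (fun a => f a = y)).card : ℝ)
          + ((A.filter (fun a => g a = y)).card : ℝ) * ((A.filter (fun a => g a = y)).card : ℝ)) / 2) :=
    Finset.sum_le_sum fun y _ => by
      nlinarith [sq_nonneg (((A.filter (fun a => f a = y)).card : ℝ)
        - ((A.filter (fun a => g a = y)).card : ℝ))]
  rw [← Finset.sum_div, Finset.sum_add_distrib] at key
  linarith

end Vale.Agent.Lib.P054
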