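import Vale.Agent.Lib.P054.LatD.EnergyShift
import Vale.Agent.Lib.P054.LatD.Mixed

/-! N6. ROUTE. Split the set according to `(p.1.2, p.2.2) ∈ cube m t ×ˢ cube m t` (`Finset.card_eq_sum_card_fiberwise`); `card (cube m t) = (2 t + 1)^m` (`Fintype.card_piFinset`, `Finset.prod_const`,
`Int.card_Icc`), so there are `(2t+1)^(2m)` fibres. The fibre over `(r, r')` injects by `p ↦ (p.1.1, p.2.1)` into
`(box3 t ×ˢ box3 t).filter (fun q => ‖lat q.1 + x‖ = ‖lat q.2 + y‖)`, `x = ∑ i, (r i : ℝ) • U i`, `y = ∑ i, (r' i : ℝ) • U i`, which has `≤ 1100 (2t)^4` elements by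
`card_mixed_le (box3 t) (fun v => ‖lat v + x‖) (fun v => ‖lat v + y‖)` and `card_energy_shift` (for `x` and for `y`). -/

namespace Vale.Agent.Lib.P054

open Finset

variable {E : Type*} [NormedAddCommGroup E] [InnerProductSpace ℝ E]

/-- lattice point with coordinates `a.1` along `u1, u2, u3` and `a.2` along the family `U` -/
noncomputable def latD {m : ℕ} (u1 u2 u3 : E) (U : Fin m → E) (a : (ℤ × ℤ × ℤ) × (Fin m → ℤ)) : E :=
  lat u1 u2 u3 a.1 + ∑ i, (a.2 i : ℝ) • U i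

private theorem card_cube (m t : ℕ) : ((cube m t).card : ℝ) = (2 * (t : ℝ) + 1) ^ m := by
  unfold cube box
  rw [Fintype.card_piFinset, Finset.prod_const, Int.card_Icc, Finset.card_univ, Fintype.card_fin]
  have : ((t : ℤ) + 1 - -(t : ℤ)).toNat = 2 * t + 1 := by omega
  rw [this]
  push_cast
  ring

theorem card_energy_D {m : ℕ} (u1 u2 u3 : E) (U : Fin m → E) (hu : LinearIndependent ℝ ![u1, u2, u3])
    (t : ℕ) (ht : 1 ≤ t) :
    ((((box3 t ×ˢ cube m t) ×ˢ (box3 t ×ˢ cube m t)).filter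
        (fun p => ‖latD u1 u2 u3 U p.1‖ = ‖latD u1 u2 u3 U p.2‖)).card : ℝ)
      ≤ 1100 * ((2 * t : ℕ) : ℝ) ^ 4 * (2 * (t : ℝ) + 1) ^ (2 * m) := by
  set B : ℝ := 1100 * ((2 * t : ℕ) : ℝ) ^ 4 with hB
  set W := (((box3 t ×ˢ cube m t) ×ˢ (box3 t ×ˢ cube m t)).filter
        (fun p => ‖latD u1 u2 u3 U p.1‖ = ‖latD u1 u2 u3 U p.2‖)) with hW
  have hmem : ∀ p ∈ W, (p.1.1 ∈ box3 t ∧ p.1.2 ∈ cube m t) ∧ (p.2.1 ∈ box3 t ∧ p.2.2 ∈ cube m t) ∧
      ‖latD u1 u2 u3 U p.1‖ = ‖latD u1 u2 u3 U p.2‖ := by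
    intro p hp
    rw [hW, Finset.mem_filter, Finset.mem_product, Finset.mem_product, Finset.mem_product] at hp
    exact ⟨hp.1.1, hp.1.2, hp.2⟩
  have hmaps : ∀ p ∈ W, ((p.1.2, p.2.2) : (Fin m → ℤ) × (Fin m → ℤ)) ∈ cube m t ×ˢ cube m t := by
    intro p hp
    obtain ⟨h1, h2, _⟩ := hmem p hp
    exact Finset.mem_product.2 ⟨h1.2, h2.2⟩
  have hsum := Finset.card_eq_sum_card_fiberwise hmaps
  have hfib : ∀ b ∈ cube m t ×ˢ cube m t,
      ((W.filter (fun p => ((p.1.2, p.2.2) : (Fin m → ℤ) × (Fin m → ℤ)) = b)).card : ℝ) ≤ B := by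
    rintro ⟨r, r'⟩ _
    have hQ := card_mixed_le (box3 t) (fun v => ‖lat u1 u2 u3 v + ∑ i, (r i : ℝ) • U i‖)
      (fun v => ‖lat u1 u2 u3 v + ∑ i, (r' i : ℝ) • U i‖) B
      (card_energy_shift u1 u2 u3 _ hu t ht) (card_energy_shift u1 u2 u3 _ hu t ht)
    refine le_trans ?_ hQ
    rw [Nat.cast_le]
    apply Finset.card_le_card_of_injOn (fun p => (p.1.1, p.2.1))
    · intro p hp
      have hp' := Finset.mem_filter.1 (Finset.mem_coe.1 hp)
      obtain ⟨h1, h2, h3⟩ := hmem p hp'.1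
      have e := hp'.2
      have e1 : p.1.2 = r := (Prod.mk.inj e).1
      have e2 : p.2.2 = r' := (Prod.mk.inj e).2
      rw [Finset.mem_coe, Finset.mem_filter, Finset.mem_product]
      refine ⟨⟨h1.1, h2.1⟩, ?_⟩
      unfold latD at h3
      rw [e1, e2] at h3
      exact h3
    · intro p hp p' hp' h
      have hq := (Finset.mem_filter.1 (Finset.mem_coe.1 hp)).2
      have hq' := (Finset.mem_filter.1 (Finset.mem_coe.1 hp')).2
      have h' : (p.1.1, p.2.1) = (p'.1.1, p'.2.1) := h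
      have a1 : p.1.1 = p'.1.1 := (Prod.mk.inj h').1
      have a2 : p.2.1 = p'.2.1 := (Prod.mk.inj h').2
      have b1 : p.1.2 = p'.1.2 := (Prod.mk.inj hq).1.trans (Prod.mk.inj hq').1.symm
      have b2 : p.2.2 = p'.2.2 := (Prod.mk.inj hq).2.trans (Prod.mk.inj hq').2.symm
      exact Prod.ext (Prod.ext a1 b1) (Prod.ext a2 b2)
  rw [hsum, Nat.cast_sum]
  calc ∑ b ∈ cube m t ×ˢ cube m t,
        ((W.filter (fun p => ((p.1.2, p.2.2) : (Fin m → ℤ) × (Fin m → ℤ)) = b)).card : ℝ)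
      ≤ ∑ _b ∈ cube m t ×ˢ cube m t, B := Finset.sum_le_sum hfib
    _ = B * (2 * (t : ℝ) + 1) ^ (2 * m) := by
        rw [Finset.sum_const, Finset.card_product, nsmul_eq_mul, Nat.cast_mul, card_cube]
        ring

end Vale.Agent.Lib.P054
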