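import Vale.Agent.Lib.P054.LatD.TotalK

/-! N4. ROUTE: copy of `card_energy_G` in `Lat/EnergyG.lean`: inject by `(v, w) ↦ (v - w, v + w)` into the set of
`card_orth_K (cvec u1 u2 u3) (cvec_ne_zero ..) (cvec_par ..) (fun a => -2 * ⟪lat u1 u2 u3 a, x⟫) (2 t)`:
`‖lat v + x‖^2 - ‖lat w + x‖^2 = ⟪lat v - lat w, lat v + lat w + 2 x⟫ = ⟪lat (v - w), lat (v + w)⟫ + 2 ⟪lat (v - w), x⟫`, and `rz (cvec a) b = ⟪lat a, lat b⟫` (`rz_cvec`). -/

namespace Vale.Agent.Lib.P054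

open Finset

open scoped RealInnerProductSpace

variable {E : Type*} [NormedAddCommGroup E] [InnerProductSpace ℝ E]

private theorem lat_sub' (u1 u2 u3 : E) (v w : ℤ × ℤ × ℤ) :
    lat u1 u2 u3 (v - w) = lat u1 u2 u3 v - lat u1 u2 u3 w := by
  unfold lat
  simp only [Prod.fst_sub, Prod.snd_sub, Int.cast_sub, sub_smul]
  abel

private theorem lat_add' (u1 u2 u3 : E) (v w : ℤ × ℤ × ℤ) :
    lat u1 u2 u3 (v + w) = lat u1 u2 u3 v + lat u1 u2 u3 w := by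
  unfold lat
  simp only [Prod.fst_add, Prod.snd_add, Int.cast_add, add_smul]
  abel

private theorem mem_box3' {s : ℕ} {a : ℤ × ℤ × ℤ} :
    a ∈ box3 s ↔ (-(s : ℤ) ≤ a.1 ∧ a.1 ≤ s) ∧ (-(s : ℤ) ≤ a.2.1 ∧ a.2.1 ≤ s) ∧
      (-(s : ℤ) ≤ a.2.2 ∧ a.2.2 ≤ s) := by
  simp only [box3, box, Finset.mem_product, Finset.mem_Icc]

theorem card_energy_shift (u1 u2 u3 x : E) (hu : LinearIndependent ℝ ![u1, u2, u3]) (t : ℕ) (ht : 1 ≤ t) :
    (((box3 t ×ˢ box3 t).filter (fun p => ‖lat u1 u2 u3 p.1 + x‖ = ‖lat u1 u2 u3 p.2 + x‖)).card : ℝ)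
      ≤ 1100 * ((2 * t : ℕ) : ℝ) ^ 4 := by
  classical
  refine le_trans (Nat.cast_le.mpr ?_) (card_orth_K (cvec u1 u2 u3) (cvec_ne_zero u1 u2 u3 hu)
    (cvec_par u1 u2 u3 hu) (fun a => -2 * ⟪lat u1 u2 u3 a, x⟫) (2 * t) (by omega))
  refine Finset.card_le_card_of_injOn (fun p => (p.1 - p.2, p.1 + p.2)) ?_ ?_
  · intro p hp
    have hp' := Finset.mem_filter.mp (Finset.mem_coe.mp hp)
    have h1 := mem_box3'.mp (Finset.mem_product.mp hp'.1).1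
    have h2 := mem_box3'.mp (Finset.mem_product.mp hp'.1).2
    have hn : ‖lat u1 u2 u3 p.1 + x‖ = ‖lat u1 u2 u3 p.2 + x‖ := hp'.2
    refine Finset.mem_coe.mpr (Finset.mem_filter.mpr ⟨Finset.mem_product.mpr ⟨?_, ?_⟩, ?_⟩)
    · refine mem_box3'.mpr ?_
      simp only [Prod.fst_sub, Prod.snd_sub]
      push_cast
      refine ⟨⟨?_, ?_⟩, ⟨?_, ?_⟩, ⟨?_, ?_⟩⟩ <;> omega
    · refine mem_box3'.mpr ?_
      simp only [Prod.fst_add, Prod.snd_add]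
      push_cast
      refine ⟨⟨?_, ?_⟩, ⟨?_, ?_⟩, ⟨?_, ?_⟩⟩ <;> omega
    · show rz (cvec u1 u2 u3 (p.1 - p.2)) (p.1 + p.2) = -2 * ⟪lat u1 u2 u3 (p.1 - p.2), x⟫
      have hsq : ‖lat u1 u2 u3 p.1 + x‖ ^ 2 = ‖lat u1 u2 u3 p.2 + x‖ ^ 2 := by rw [hn]
      rw [norm_add_sq_real, norm_add_sq_real] at hsq
      rw [rz_cvec, lat_sub', lat_add', inner_sub_left, inner_add_right, inner_add_right,
        real_inner_self_eq_norm_sq, real_inner_self_eq_norm_sq,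
        real_inner_comm (lat u1 u2 u3 p.1) (lat u1 u2 u3 p.2), inner_sub_left]
      linarith
  · intro p _ q _ h
    simp only [Prod.mk.injEq] at h
    obtain ⟨h1, h2⟩ := h
    have a1 := congrArg Prod.fst h1
    have a2 := congrArg (fun x => x.2.1) h1
    have a3 := congrArg (fun x => x.2.2) h1
    have b1 := congrArg Prod.fst h2
    have b2 := congrArg (fun x => x.2.1) h2
    have b3 := congrArg (fun x => x.2.2) h2
    simp only [Prod.fst_sub, Prod.snd_sub, Prod.fst_add, Prod.snd_add] at a1 a2 a3 b1 b2 b3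
    refine Prod.ext (Prod.ext ?_ (Prod.ext ?_ ?_)) (Prod.ext ?_ (Prod.ext ?_ ?_)) <;> omega

end Vale.Agent.Lib.P054
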