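import Vale.Agent.Lib.P054.LatD.EnergyD

/-! N7. ROUTE: copy of `pinned_G` in `Lat/PinnedG.lean` with `latD` and `card_energy_D`. Choose `Z : E → (ℤ × ℤ × ℤ) × (Fin m → ℤ)` with `latD (Z q) = q` and all coordinates in `[1, t]` for `q ∈ P`.
`latD (a - b) = latD a - latD b` (unfold `latD`, `lat`; `Prod.fst_sub`, `Pi.sub_apply`, `push_cast`, `sub_smul`, `Finset.sum_sub_distrib`, `abel`/`module`).
`Z q - Z p ∈ box3 t ×ˢ cube m t` (`Fintype.mem_piFinset`, `Finset.mem_Icc`, `omega`). IMPORTANT: do not use `convert`/`congr!` on Decidable instances. -/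

namespace Vale.Agent.Lib.P054

open Finset

variable {E : Type*} [NormedAddCommGroup E] [InnerProductSpace ℝ E]

private theorem latD_sub {m : ℕ} (u1 u2 u3 : E) (U : Fin m → E)
    (a b : (ℤ × ℤ × ℤ) × (Fin m → ℤ)) :
    latD u1 u2 u3 U (a - b) = latD u1 u2 u3 U a - latD u1 u2 u3 U b := by
  have h1 : ∑ i, (((a - b).2 i : ℤ) : ℝ) • U i
      = ∑ i, ((a.2 i : ℤ) : ℝ) • U i - ∑ i, ((b.2 i : ℤ) : ℝ) • U i := by
    rw [← Finset.sum_sub_distrib]
    apply Finset.sum_congr rfl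
    intro i _
    simp only [Prod.snd_sub, Pi.sub_apply]
    push_cast
    rw [sub_smul]
  unfold latD
  rw [h1]
  unfold lat
  simp only [Prod.fst_sub, Prod.snd_sub]
  push_cast
  module

open Classical in
theorem pinned_D {m : ℕ} (u1 u2 u3 : E) (U : Fin m → E) (hu : LinearIndependent ℝ ![u1, u2, u3])
    (t : ℕ) (ht : 1 ≤ t) (P : Finset E)
    (hP : ∀ q ∈ P, ∃ a : (ℤ × ℤ × ℤ) × (Fin m → ℤ),
      (1 ≤ a.1.1 ∧ a.1.1 ≤ t) ∧ (1 ≤ a.1.2.1 ∧ a.1.2.1 ≤ t) ∧ (1 ≤ a.1.2.2 ∧ a.1.2.2 ≤ t) ∧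
      (∀ i, 1 ≤ a.2 i ∧ a.2 i ≤ t) ∧ q = latD u1 u2 u3 U a)
    (p : E) (hp : p ∈ P) :
    ((P.card : ℝ) - 1) ^ 2
      ≤ 1100 * ((2 * t : ℕ) : ℝ) ^ 4 * (2 * (t : ℝ) + 1) ^ (2 * m)
        * (((P.erase p).image (fun q => dist p q)).card : ℝ) := by
  have hex : ∀ q : E, ∃ a : (ℤ × ℤ × ℤ) × (Fin m → ℤ), q ∈ P →
      (latD u1 u2 u3 U a = q ∧ (1 ≤ a.1.1 ∧ a.1.1 ≤ t) ∧ (1 ≤ a.1.2.1 ∧ a.1.2.1 ≤ t) ∧
        (1 ≤ a.1.2.2 ∧ a.1.2.2 ≤ t) ∧ (∀ i, 1 ≤ a.2 i ∧ a.2 i ≤ t)) := by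
    intro q
    by_cases hq : q ∈ P
    · obtain ⟨a, h1, h2, h3, h4, h5⟩ := hP q hq
      exact ⟨a, fun _ => ⟨h5.symm, h1, h2, h3, h4⟩⟩
    · exact ⟨0, fun h => absurd h hq⟩
  choose Z hZ using hex
  have hdist : ∀ q ∈ P, dist p q = ‖latD u1 u2 u3 U (Z q - Z p)‖ := by
    intro q hq
    rw [latD_sub, (hZ q hq).1, (hZ p hp).1, dist_eq_norm, norm_sub_rev]
  have hcs := card_sq_le (P.erase p) (fun q => dist p q)
  have hcard : ((P.erase p).card : ℝ) = (P.card : ℝ) - 1 := by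
    rw [Finset.card_erase_of_mem hp, Nat.cast_sub (Finset.card_pos.mpr ⟨p, hp⟩)]
    simp
  have hbox : ∀ q ∈ P, Z q - Z p ∈ box3 t ×ˢ cube m t := by
    intro q hq
    obtain ⟨-, a1, a2, a3, a4⟩ := hZ q hq
    obtain ⟨-, b1, b2, b3, b4⟩ := hZ p hp
    rw [Finset.mem_product]
    constructor
    · unfold box3 box
      simp only [Finset.mem_product, Finset.mem_Icc, Prod.fst_sub, Prod.snd_sub]
      refine ⟨⟨?_, ?_⟩, ⟨?_, ?_⟩, ⟨?_, ?_⟩⟩ <;> omega
    · unfold cube box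
      rw [Fintype.mem_piFinset]
      intro i
      have c1 := a4 i
      have c2 := b4 i
      simp only [Finset.mem_Icc, Prod.snd_sub, Pi.sub_apply]
      constructor <;> omega
  have hinj : (((P.erase p) ×ˢ (P.erase p)).filter (fun x => dist p x.1 = dist p x.2)).card
      ≤ (((box3 t ×ˢ cube m t) ×ˢ (box3 t ×ˢ cube m t)).filter
        (fun x => ‖latD u1 u2 u3 U x.1‖ = ‖latD u1 u2 u3 U x.2‖)).card := by
    refine Finset.card_le_card_of_injOn (fun x => (Z x.1 - Z p, Z x.2 - Z p)) ?_ ?_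
    · intro x hx
      have hx' := Finset.mem_filter.mp (Finset.mem_coe.mp hx)
      obtain ⟨hx1, hx2⟩ := Finset.mem_product.mp hx'.1
      have h1 := Finset.mem_of_mem_erase hx1
      have h2 := Finset.mem_of_mem_erase hx2
      refine Finset.mem_coe.mpr (Finset.mem_filter.mpr ⟨Finset.mem_product.mpr ⟨hbox _ h1, hbox _ h2⟩, ?_⟩)
      show ‖latD u1 u2 u3 U (Z x.1 - Z p)‖ = ‖latD u1 u2 u3 U (Z x.2 - Z p)‖
      rw [← hdist _ h1, ← hdist _ h2]
      exact hx'.2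
    · intro x hx y hy hxy
      have hx' := Finset.mem_filter.mp (Finset.mem_coe.mp hx)
      have hy' := Finset.mem_filter.mp (Finset.mem_coe.mp hy)
      obtain ⟨hx1, hx2⟩ := Finset.mem_product.mp hx'.1
      obtain ⟨hy1, hy2⟩ := Finset.mem_product.mp hy'.1
      have key : ∀ a ∈ P, ∀ b ∈ P, Z a - Z p = Z b - Z p → a = b := by
        intro a ha b hb hab
        have : Z a = Z b := sub_left_injective hab
        rw [← (hZ a ha).1, ← (hZ b hb).1, this]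
      have e := Prod.mk.inj hxy
      exact Prod.ext (key _ (Finset.mem_of_mem_erase hx1) _ (Finset.mem_of_mem_erase hy1) e.1)
        (key _ (Finset.mem_of_mem_erase hx2) _ (Finset.mem_of_mem_erase hy2) e.2)
  have hE := card_energy_D u1 u2 u3 U hu t ht
  have h1 : (((P.erase p).card : ℝ)) ^ 2 ≤ (((P.erase p).image (fun q => dist p q)).card : ℝ)
      * ((((P.erase p) ×ˢ (P.erase p)).filter (fun x => dist p x.1 = dist p x.2)).card : ℝ) := by
    exact_mod_cast hcs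
  rw [← hcard]
  calc (((P.erase p).card : ℝ)) ^ 2 ≤ (((P.erase p).image (fun q => dist p q)).card : ℝ)
      * ((((P.erase p) ×ˢ (P.erase p)).filter (fun x => dist p x.1 = dist p x.2)).card : ℝ) := h1
    _ ≤ (((P.erase p).image (fun q => dist p q)).card : ℝ)
      * (1100 * ((2 * t : ℕ) : ℝ) ^ 4 * (2 * (t : ℝ) + 1) ^ (2 * m)) := by
        refine mul_le_mul_of_nonneg_left (le_trans ?_ hE) (by positivity)
        exact_mod_cast hinj
    _ = _ := by ring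

end Vale.Agent.Lib.P054
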