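import Vale.Agent.Lib.P054.Lat.PinnedG

/-! N2. ROUTE: copy the proof of `card_plane_sym` in `Lat/SymPlane.lean`, with `k` instead of `0` (`card_plane'` is stated for all `k`). -/

namespace Vale.Agent.Lib.P054

open Finset

theorem card_plane_sym_k (s : ℕ) (z : ℤ × ℤ × ℤ) (hz : z ≠ 0) (k : ℤ) :
    (((box3 s).filter (fun b => dot z b = k)).card : ℝ) ≤ 4 * s ^ 2 * om z + 4 * s + 1 := by
  obtain ⟨z1, z2, z3⟩ := z
  by_cases hcase : |z1| ≤ max |z2| |z3|
  · have h23 : z2 ≠ 0 ∨ z3 ≠ 0 := by
      by_contra hcon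
      rw [not_or, not_not, not_not] at hcon
      obtain ⟨h2, h3⟩ := hcon
      subst h2
      subst h3
      simp only [abs_zero, max_self, abs_nonpos_iff] at hcase
      subst hcase
      exact hz rfl
    have hom : om (z1, z2, z3) = (Int.gcd z1 (Int.gcd z2 z3) : ℝ) / mx z2 z3 := by
      unfold om g3 sup3 mx
      simp only
      rw [max_eq_right hcase]
    rw [hom]
    exact card_plane' s z1 z2 z3 k h23
  · rw [not_le] at hcase
    have hz1 : z1 ≠ 0 := by
      intro h
      rw [h, abs_zero] at hcase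
      exact absurd hcase (not_lt.2 (le_max_of_le_left (abs_nonneg _)))
    have hgcd : Int.gcd z1 (Int.gcd z2 z3) = Int.gcd z2 (Int.gcd z1 z3) := by
      rw [← Int.gcd_assoc, Int.gcd_comm z1 z2, Int.gcd_assoc]
    have hom : om (z1, z2, z3) = (Int.gcd z2 (Int.gcd z1 z3) : ℝ) / mx z1 z3 := by
      unfold om g3 sup3 mx
      simp only
      have h3 : |z3| ≤ |z1| := le_of_lt (lt_of_le_of_lt (le_max_right _ _) hcase)
      rw [max_eq_left hcase.le, max_eq_left h3, hgcd]
    rw [hom]
    refine le_trans ?_ (card_plane' s z2 z1 z3 k (Or.inl hz1))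
    have hle : ((box3 s).filter (fun b => dot (z1, z2, z3) b = k)).card
        ≤ ((box3 s).filter (fun b => dot (z2, z1, z3) b = k)).card := by
      apply Finset.card_le_card_of_injOn (fun b => (b.2.1, b.1, b.2.2))
      · intro b hb
        have hb' := Finset.mem_filter.1 (Finset.mem_coe.1 hb)
        apply Finset.mem_coe.2
        apply Finset.mem_filter.2
        obtain ⟨hb1, hb2⟩ := hb'
        simp only [box3, Finset.mem_product] at hb1 ⊢
        simp only [dot] at hb2 ⊢
        exact ⟨⟨hb1.2.1, hb1.1, hb1.2.2⟩, by linarith [hb2]⟩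
      · intro b _ b' _ h
        simp only [Prod.mk.injEq] at h
        exact Prod.ext h.2.1 (Prod.ext h.1 h.2.2)
    exact_mod_cast hle

end Vale.Agent.Lib.P054
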