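import Vale.Agent.Lib.P054.LatD.AffNormal
import Vale.Agent.Lib.P054.LatD.SymPlaneK

/-! N3. ROUTE: copy the proof of `card_orth_G` in `Lat/TotalG.lean`, with `plane_or_line_aff s (c a) _ (κ a)` instead of `plane_or_line` (so the first alternative is `N a ≤ 4 s + 1`,
and `A` = the set of `a ≠ 0` in the box with `4 s + 1 < N a`) and `card_plane_sym_k` instead of `card_plane_sym`. The numbers are the same:
`27 s^4 + (2s+1)^3 (4 s + 1) + 4 s^2 * 225 s^2 ≤ 1062 s^4`. -/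

namespace Vale.Agent.Lib.P054

open Finset

private theorem card_boxK (s : ℕ) : (box s).card = 2 * s + 1 := by
  unfold box
  rw [Int.card_Icc]
  omega

private theorem card_box3K (s : ℕ) : (box3 s).card = (2 * s + 1) ^ 3 := by
  unfold box3
  rw [Finset.card_product, Finset.card_product, card_boxK]
  ring

private theorem cube_leK (s : ℕ) (hs : 1 ≤ s) : (2 * (s : ℝ) + 1) ^ 3 ≤ 27 * (s : ℝ) ^ 3 := by
  have hs' : (1 : ℝ) ≤ s := by exact_mod_cast hs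
  have h1 : 2 * (s : ℝ) + 1 ≤ 3 * s := by linarith
  have h2 : (2 * (s : ℝ) + 1) ^ 3 ≤ (3 * (s : ℝ)) ^ 3 := pow_le_pow_left₀ (by positivity) h1 3
  calc (2 * (s : ℝ) + 1) ^ 3 ≤ (3 * (s : ℝ)) ^ 3 := h2
    _ = 27 * (s : ℝ) ^ 3 := by ring

theorem card_orth_K (c : ℤ × ℤ × ℤ → ℝ × ℝ × ℝ) (hc0 : ∀ a, a ≠ 0 → c a ≠ 0)
    (hH : ∀ a a', rrpar (c a) (c a') → icross a a' = 0) (κ : ℤ × ℤ × ℤ → ℝ) (s : ℕ) (hs : 1 ≤ s) :
    (((box3 s ×ˢ box3 s).filter (fun p => rz (c p.1) p.2 = κ p.1)).card : ℝ) ≤ 1100 * (s : ℝ) ^ 4 := by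
  classical
  have hs' : (1 : ℝ) ≤ s := by exact_mod_cast hs
  obtain ⟨Q, hQ⟩ : ∃ Q : ℤ × ℤ × ℤ → ℤ × ℤ × ℤ → Prop, ∀ a z, Q a z ↔ (z ≠ 0 ∧ rpar (c a) z ∧
      ∃ k' : ℤ, (box3 s).filter (fun b => rz (c a) b = κ a) ⊆ (box3 s).filter (fun b => dot z b = k')) :=
    ⟨_, fun _ _ => Iff.rfl⟩
  obtain ⟨z, hz⟩ : ∃ z : ℤ × ℤ × ℤ → ℤ × ℤ × ℤ, ∀ a, (∃ y, Q a y) → Q a (z a) := by
    refine ⟨fun a => if h : ∃ y, Q a y then h.choose else 0, fun a h => ?_⟩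
    simp only [dif_pos h]
    exact h.choose_spec
  have e : ((box3 s ×ˢ box3 s).filter (fun p => rz (c p.1) p.2 = κ p.1)).card
      = ∑ a ∈ box3 s, ((box3 s).filter (fun b => rz (c a) b = κ a)).card := by
    rw [Finset.card_filter, Finset.sum_product]
    refine Finset.sum_congr rfl fun a _ => ?_
    rw [Finset.card_filter]
  have hom : ∀ y : ℤ × ℤ × ℤ, 0 ≤ om y := by
    intro y
    unfold om
    have h1 : (0 : ℝ) ≤ (sup3 y : ℝ) := by
      have : (0 : ℤ) ≤ sup3 y := le_max_of_le_left (abs_nonneg _)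
      exact_mod_cast this
    exact div_nonneg (Nat.cast_nonneg _) h1
  have hterm : ∀ a ∈ box3 s, (((box3 s).filter (fun b => rz (c a) b = κ a)).card : ℝ)
      ≤ ((if a = 0 then (2 * (s : ℝ) + 1) ^ 3 else 0) + (4 * (s : ℝ) + 1))
        + (if (a ≠ 0 ∧ ∃ y, Q a y) then 4 * (s : ℝ) ^ 2 * om (z a) else 0) := by
    intro a _
    by_cases h0 : a = 0
    · have h2 : ((box3 s).filter (fun b => rz (c a) b = κ a)).card ≤ (2 * s + 1) ^ 3 := by
        rw [← card_box3K]; exact Finset.card_filter_le _ _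
      have h3 : (((box3 s).filter (fun b => rz (c a) b = κ a)).card : ℝ)
          ≤ (2 * (s : ℝ) + 1) ^ 3 := by exact_mod_cast h2
      rw [if_pos h0, if_neg (fun h => h.1 h0)]
      linarith
    · rw [if_neg h0]
      by_cases hy : ∃ y, Q a y
      · rw [if_pos ⟨h0, hy⟩]
        obtain ⟨q1, q2, k', q3⟩ := (hQ a (z a)).1 (hz a hy)
        have h4 := card_plane_sym_k s (z a) q1 k'
        have h5 : (((box3 s).filter (fun b => rz (c a) b = κ a)).card : ℝ)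
            ≤ (((box3 s).filter (fun b => dot (z a) b = k')).card : ℝ) := by
          exact_mod_cast Finset.card_le_card q3
        linarith
      · rw [if_neg (fun h => hy h.2)]
        rcases plane_or_line_aff s (c a) (hc0 a h0) (κ a) with h6 | ⟨y, y1, y2, y3⟩
        · have h7 : (((box3 s).filter (fun b => rz (c a) b = κ a)).card : ℝ) ≤ 4 * (s : ℝ) + 1 := by
            exact_mod_cast h6
          linarith
        · exact absurd ⟨y, (hQ a y).2 ⟨y1, y2, y3⟩⟩ hy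
  rw [e]
  push_cast
  refine (Finset.sum_le_sum hterm).trans ?_
  have hF : ∑ x ∈ box3 s, (if (x ≠ 0 ∧ ∃ y, Q x y) then 4 * (s : ℝ) ^ 2 * om (z x) else 0)
      = 4 * (s : ℝ) ^ 2 * ∑ a ∈ (box3 s).filter (fun a => a ≠ 0 ∧ ∃ y, Q a y), om (z a) := by
    rw [← Finset.sum_filter, ← Finset.mul_sum]
  rw [Finset.sum_add_distrib, Finset.sum_add_distrib, Finset.sum_const, nsmul_eq_mul, card_box3K, hF]
  have hkey : ∑ a ∈ (box3 s).filter (fun a => a ≠ 0 ∧ ∃ y, Q a y), om (z a) ≤ 225 * (s : ℝ) ^ 2 := by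
    refine key_sum s hs _ ?_ z ?_ ?_
    · intro a ha
      obtain ⟨h1, h2⟩ := Finset.mem_filter.1 ha
      exact Finset.mem_filter.2 ⟨h1, h2.1⟩
    · intro a ha
      exact ((hQ a (z a)).1 (hz a (Finset.mem_filter.1 ha).2.2)).1
    · intro a ha a' ha' hzz
      obtain ⟨q1, q2, _⟩ := (hQ a (z a)).1 (hz a (Finset.mem_filter.1 ha).2.2)
      obtain ⟨r1, r2, _⟩ := (hQ a' (z a')).1 (hz a' (Finset.mem_filter.1 ha').2.2)
      exact hH a a' (rpar_trans (c a) (c a') (z a) (z a') q1 r1 q2 r2 hzz)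
  have h0 : ∑ a ∈ box3 s, (if a = 0 then (2 * (s : ℝ) + 1) ^ 3 else 0) ≤ (2 * (s : ℝ) + 1) ^ 3 := by
    rw [Finset.sum_ite_eq']
    split_ifs
    · exact le_rfl
    · positivity
  have h1 := cube_leK s hs
  have h2 : (s : ℝ) ^ 3 ≤ (s : ℝ) ^ 4 := by
    have : (s : ℝ) ^ 4 = (s : ℝ) ^ 3 * s := by ring
    rw [this]
    exact le_mul_of_one_le_right (by positivity) hs'
  have h3 : (((2 * s + 1) ^ 3 : ℕ) : ℝ) * (4 * (s : ℝ) + 1) ≤ 27 * (s : ℝ) ^ 3 * (5 * (s : ℝ)) := by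
    push_cast
    exact mul_le_mul h1 (by linarith) (by positivity) (by positivity)
  have h4 : 4 * (s : ℝ) ^ 2 * ∑ a ∈ (box3 s).filter (fun a => a ≠ 0 ∧ ∃ y, Q a y), om (z a)
      ≤ 4 * (s : ℝ) ^ 2 * (225 * (s : ℝ) ^ 2) := mul_le_mul_of_nonneg_left hkey (by positivity)
  have h5 : 27 * (s : ℝ) ^ 3 * (5 * (s : ℝ)) = 135 * (s : ℝ) ^ 4 := by ring
  have h6 : 4 * (s : ℝ) ^ 2 * (225 * (s : ℝ) ^ 2) = 900 * (s : ℝ) ^ 4 := by ring
  have h7 : (0 : ℝ) ≤ (s : ℝ) ^ 4 := by positivity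
  linarith

end Vale.Agent.Lib.P054
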